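import Vale.Agent.H27.P101.Char
import Vale.Agent.H27.P101.Quot

/-!
# P101: three cases in which the central sequence algebra `F_ω(A)` has a character

Let `A` be a unital C⋆-algebra and `ω` an ultrafilter on `ℕ`.  The central sequence algebra
`F_ω(A) = A_ω ∩ A'` has a character in each of the following cases:

1. `A` has a character (a unital `*`-homomorphism `A → ℂ`);
2. for some `n ≥ 1`, `A` has a unital `*`-homomorphism onto `M_n(ℂ)` (an `n`-dimensional
   irreducible representation);
3. `A` has a unital `*`-homomorphism onto a unital C⋆-algebra `C` (a quotient of `A`) such that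
   `F_ω(C)` has a character.

This is the conjunction of the hand-ins `A_FiniteDimRepGivesCharacter` (cases 1, 2) and
`B_QuotientPullback` (case 3).  The definitions (`IsBddSeq`, `IsNullSeq`, `IsCentralSeq`,
`CentralSeqHasCharacter`: a character of `F_ω(A)` written on representing sequences) are in
`Vale/Agent/H27/P101/Defs.lean`.
-/

namespace Vale.Agent.Results.P101.A0_CharacterCriteria

open Vale.Agent.H27.P101

theorem result {A : Type*} [CStarAlgebra A] (ω : Ultrafilter ℕ) :
    ((A →⋆ₐ[ℂ] ℂ) → CentralSeqHasCharacter A ω) ∧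
    (∀ n : ℕ, 0 < n → ∀ π : A →⋆ₐ[ℂ] Matrix (Fin n) (Fin n) ℂ, Function.Surjective π →
      CentralSeqHasCharacter A ω) ∧
    (∀ (C : Type*) [CStarAlgebra C] (ρ : A →⋆ₐ[ℂ] C), Function.Surjective ρ →
      CentralSeqHasCharacter C ω → CentralSeqHasCharacter A ω) := by
  refine ⟨fun χ => ?_, fun n hn π hπ => ?_, fun C _ ρ hρ => ?_⟩
  · refine centralSeqHasCharacter_of_surjective ω χ (fun c => ⟨c • 1, by simp⟩) ?_
    intro z _
    exact ⟨z, rfl⟩
  · let _ : CStarAlgebra (Matrix (Fin n) (Fin n) ℂ) := Matrix.instCStarAlgebra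
    have : Nonempty (Fin n) := ⟨⟨0, hn⟩⟩
    refine centralSeqHasCharacter_of_surjective (B := Matrix (Fin n) (Fin n) ℂ) ω π hπ ?_
    intro z hz
    have hmem : z ∈ Set.range (Matrix.scalar (Fin n)) :=
      Matrix.mem_range_scalar_iff_commute_single'.mpr (fun i j => (hz _).symm)
    obtain ⟨c, hc⟩ := hmem
    exact ⟨c, hc.symm⟩
  · exact centralSeqHasCharacter_of_quotient ω ρ hρ

end Vale.Agent.Results.P101.A0_CharacterCriteria
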