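import Vale.Agent.H27.P101.Char

/-!
# P101: a finite-dimensional irreducible representation of `A` gives a character of `F_ω(A)`

Let `A` be a unital C⋆-algebra and `ω` an ultrafilter on `ℕ`.

* If `A` has a character (a unital `*`-homomorphism `A → ℂ`), then the central sequence algebra
  `F_ω(A) = A_ω ∩ A'` has a character.
* If, for some `n ≥ 1`, `A` has a unital `*`-homomorphism onto the full matrix algebra `M_n(ℂ)`
  (an `n`-dimensional irreducible representation), then `F_ω(A)` has a character.

So if `F_ω(A)` has no characters, `A` has no character and no finite-dimensional irreducible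
representation.  The definitions (`IsBddSeq`, `IsNullSeq`, `IsCentralSeq`,
`CentralSeqHasCharacter`: a character of `F_ω(A)` written on representing sequences) are in
`Vale/Agent/H27/P101/Defs.lean`.
-/

namespace Vale.Agent.Results.P101.A_FiniteDimRepGivesCharacter

open Vale.Agent.H27.P101

theorem result {A : Type*} [CStarAlgebra A] (ω : Ultrafilter ℕ) :
    ((A →⋆ₐ[ℂ] ℂ) → CentralSeqHasCharacter A ω) ∧
    (∀ n : ℕ, 0 < n → ∀ π : A →⋆ₐ[ℂ] Matrix (Fin n) (Fin n) ℂ, Function.Surjective π →
      CentralSeqHasCharacter A ω) := by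
  refine ⟨fun χ => ?_, fun n hn π hπ => ?_⟩
  · refine centralSeqHasCharacter_of_surjective ω χ (fun c => ⟨c • 1, by simp⟩) ?_
    intro z _
    exact ⟨z, rfl⟩
  · let _ : CStarAlgebra (Matrix (Fin n) (Fin n) ℂ) := Matrix.instCStarAlgebra
    have : Nonempty (Fin n) := ⟨⟨0, hn⟩⟩
    refine centralSeqHasCharacter_of_surjective (B := Matrix (Fin n) (Fin n) ℂ) ω π hπ ?_
    intro z hz
    have hmem : z ∈ Set.range (Matrix.scalar (Fin n)) :=
      Matrix.mem_range_scalar_iff_commute_single'.mpr (fun i j => (hz _).symm)
    obtain ⟨c, hc⟩ := hmem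
    exact ⟨c, hc.symm⟩

end Vale.Agent.Results.P101.A_FiniteDimRepGivesCharacter
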