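import Vale.Agent.H27.P101.Quot

/-!
# P101: the condition of Q1 passes to quotients

Let `ρ : A → C` be a surjective unital `*`-homomorphism of unital C⋆-algebras (so `C` is a
quotient of `A`) and `ω` an ultrafilter on `ℕ`.  If the central sequence algebra `F_ω(C)` has a
character, then so has `F_ω(A)`.  Equivalently: if `F_ω(A)` has no characters, then `F_ω(C)` has
no characters for every quotient `C` of `A`.

The definitions (`IsBddSeq`, `IsNullSeq`, `IsCentralSeq`, `CentralSeqHasCharacter`: a character
of `F_ω(A)` written on representing sequences) are in `Vale/Agent/H27/P101/Defs.lean`.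
-/

namespace Vale.Agent.Results.P101.B_QuotientPullback

open Vale.Agent.H27.P101

theorem result {A C : Type*} [CStarAlgebra A] [CStarAlgebra C] (ω : Ultrafilter ℕ)
    (ρ : A →⋆ₐ[ℂ] C) (hρ : Function.Surjective ρ) :
    CentralSeqHasCharacter C ω → CentralSeqHasCharacter A ω :=
  centralSeqHasCharacter_of_quotient ω ρ hρ

end Vale.Agent.Results.P101.B_QuotientPullback
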